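import Vale.Agent.P155T.MLE
import Vale.Agent.P155L.Main

/-!
# P155, the inequality `m ≤ 1` is a theorem (helper98)
-/

namespace Vale.Agent.P155.Soup

open Set Metric Vale.Agent.P155.LJ

theorem gp_of {V V' : Set ℂ} {u : ℂ → ℝ} (hV' : IsOpen V') (hc : HasCompactSupport u)
    (hs : tsupport u ⊆ V') : Gp V V' u := by
  obtain ⟨δ, hδ, h⟩ := hc.isCompact.exists_thickening_subset_open hV' hs
  exact ⟨δ, hδ, fun x hx y hy => not_lt.1 fun h' =>
    hy.2 (h (mem_thickening_iff.2 ⟨x, hx, dist_comm x y ▸ h'⟩))⟩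

theorem ljw : LJW := fun _ hW _ _ _ _ _ hV hV' hb hs h hu _ l0 hM hM' =>
  lejan hW hV hV' hs hb h (gp_of hV' h.cpt hu) hM hM' l0

/-- **MLE** -/
theorem mle : MLE := mle_of ljw

end Vale.Agent.P155.Soup
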