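import Vale.Agent.P155T.C

/-!
# P155, Gaussian tilts: monotonicity of partition function ratios (helper98)
-/

set_option linter.all false

open MeasureTheory Filter Topology Matrix
open scoped MatrixOrder

namespace Vale.Agent.P155.GT

noncomputable section

variable {ι κ : Type*} [Fintype ι] [DecidableEq ι] [Fintype κ] [DecidableEq κ] {l : ℝ}
  {A D : Matrix ι ι ℝ}

theorem inv_var {M : Matrix ι ι ℝ} (hM : M.PosDef) (b x : ι → ℝ) :
    2 * (x ⬝ᵥ b) - x ⬝ᵥ M *ᵥ x ≤ b ⬝ᵥ M⁻¹ *ᵥ b := by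
  have e : M *ᵥ (M⁻¹ *ᵥ b) = b := by
    rw [mulVec_mulVec, mul_nonsing_inv _ hM.det_pos.ne'.isUnit, one_mulVec]
  have := quad_nonneg hM.posSemidef (x - M⁻¹ *ᵥ b)
  rw [mulVec_sub, e, sub_dotProduct, dotProduct_sub, dotProduct_sub, dotProduct_mulVec (M⁻¹ *ᵥ b),
    ← mulVec_transpose, show Mᵀ = M from hM.isHermitian.eq, e] at this
  linarith [dotProduct_comm b x, dotProduct_comm (M⁻¹ *ᵥ b) b]

theorem psd_conj (hA : A.PosSemidef) (d : Matrix κ ι ℝ) : (d * A * dᵀ).PosSemidef :=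
  hA.mul_mul_conjTranspose_same d

theorem Zd_add (hA : A.PosSemidef) (B : Matrix κ ι ℝ) :
    Zd 1 A / Zd 1 (A + Bᵀ * B) = (Zd 1 (B * (1 + A)⁻¹ * Bᵀ))⁻¹ := by
  have h := pd_one_add zero_le_one hA
  rw [one_smul] at h
  simp only [Zd, one_smul, inv_inv, div_inv_eq_mul]
  rw [Matrix.mul_assoc, det_one_add_mul_comm, inv_mul_eq_iff_eq_mul₀ (Real.sqrt_pos.2 h.det_pos).ne',
    ← Real.sqrt_mul h.det_pos.le, ← det_mul, Matrix.mul_add, ← Matrix.mul_assoc, ← Matrix.mul_assoc,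
    mul_nonsing_inv _ h.det_pos.ne'.isUnit, Matrix.mul_one, Matrix.one_mul, add_assoc]

theorem ratio_mat (hA : A.PosSemidef) (hD : D.PosSemidef) {d : Matrix κ ι ℝ}
    (hd : ∀ η, (dᵀ *ᵥ η) ⬝ᵥ (dᵀ *ᵥ η) ≤ η ⬝ᵥ η) :
    Zd 1 (d * A * dᵀ) / Zd 1 (d * (A + D) * dᵀ) ≤ Zd 1 A / Zd 1 (A + D) := by
  obtain ⟨B, rfl⟩ := CStarAlgebra.nonneg_iff_eq_star_mul_self.mp hD.nonneg
  have h := pd_one_add zero_le_one hA
  have h' := pd_one_add zero_le_one (psd_conj hA d)
  rw [one_smul] at h h'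
  have p := psd_conj h.inv.posSemidef B
  have p' := psd_conj h'.inv.posSemidef (B * dᵀ)
  rw [star_eq_conjTranspose, conjTranspose_eq_transpose_of_trivial, Zd_add hA,
    show d * (A + Bᵀ * B) * dᵀ = d * A * dᵀ + (B * dᵀ)ᵀ * (B * dᵀ) by
      simp only [Matrix.mul_add, Matrix.add_mul, transpose_mul, transpose_transpose,
        Matrix.mul_assoc], Zd_add (psd_conj hA d)]
  refine inv_anti₀ (Zd_pos zero_le_one p) (Zd_anti zero_le_one p p' fun ζ => ?_)
  set η := (1 + d * A * dᵀ)⁻¹ *ᵥ (d *ᵥ (Bᵀ *ᵥ ζ)) with hη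
  have e : (1 + d * A * dᵀ) *ᵥ η = d *ᵥ (Bᵀ *ᵥ ζ) := by
    rw [hη, mulVec_mulVec, mul_nonsing_inv _ h'.det_pos.ne'.isUnit, one_mulVec]
  have e1 := congrArg (η ⬝ᵥ ·) e
  have e2 := inv_var h (Bᵀ *ᵥ ζ) (dᵀ *ᵥ η)
  have e3 := hd η
  simp only [add_mulVec, one_mulVec, dotProduct_add, ← mulVec_mulVec, dotProduct_mulVec η d,
    ← mulVec_transpose] at e1 e2
  simp only [transpose_mul, transpose_transpose, ← mulVec_mulVec, dotProduct_mulVec ζ B,
    ← mulVec_transpose, ← hη]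
  rw [dotProduct_comm _ (dᵀ *ᵥ η)]
  linarith

variable {H : Type*} [NormedAddCommGroup H] [InnerProductSpace ℝ H]

theorem gram_comb {r : ι → H} {r' : κ → H} {a : Matrix κ ι ℝ} (h : ∀ i, r' i = ∑ j, a i j • r j) :
    gram ℝ r' = a * gram ℝ r * aᵀ := by
  ext i j
  simp only [gram_apply, h, sum_inner, inner_sum, real_inner_smul_left, real_inner_smul_right,
    mul_apply, transpose_apply, Finset.sum_mul, Finset.mul_sum]
  exact Finset.sum_congr rfl fun _ _ => Finset.sum_congr rfl fun _ _ => by ring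

theorem gram_split (M : Submodule ℝ H) [M.HasOrthogonalProjection] (r : ι → H) :
    gram ℝ r = gram ℝ (fun j => M.starProjection (r j)) + gram ℝ fun j => Mᗮ.starProjection (r j) := by
  ext i j
  have := fun u v : H => Submodule.inner_right_of_mem_orthogonal (M.starProjection_apply_mem u)
    (Mᗮ.starProjection_apply_mem v)
  rw [gram_apply, ← M.starProjection_add_starProjection_orthogonal (r i),
    ← M.starProjection_add_starProjection_orthogonal (r j), inner_add_left, inner_add_right,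
    inner_add_right, this, real_inner_comm _ (Mᗮ.starProjection (r i)), this, add_zero, zero_add]
  rfl

/-- **monotonicity of the ratio** -/
theorem ratio_mono (hl : 0 < l) (M : Submodule ℝ H) [M.HasOrthogonalProjection] {r : ι → H}
    {r' : κ → H} {a : κ → ι → ℝ} (h : ∀ i, r' i = ∑ j, a i j • r j)
    (ha : ∀ ξ : κ → ℝ, ∑ j, (∑ i, ξ i * a i j) ^ 2 ≤ l * ∑ i, ξ i ^ 2) :
    Zd 1 (gram ℝ fun i => M.starProjection (r' i)) / Zd 1 (gram ℝ r') ≤
      Zd l (gram ℝ fun j => M.starProjection (r j)) / Zd l (gram ℝ r) := by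
  have hs := Real.sqrt_pos.2 hl
  have e : ∀ X : Matrix ι ι ℝ, ((√l)⁻¹ • of a) * (l • X) * ((√l)⁻¹ • of a)ᵀ = of a * X * (of a)ᵀ :=
    fun X => by
      rw [transpose_smul, Matrix.mul_smul, Matrix.mul_smul, Matrix.smul_mul, Matrix.smul_mul,
        Matrix.smul_mul, smul_smul, smul_smul, show (√l)⁻¹ * l * (√l)⁻¹ = 1 by
          field_simp; exact (Real.sq_sqrt hl.le).symm, one_smul]
  have := ratio_mat ((posSemidef_gram ℝ fun j => M.starProjection (r j)).smul hl.le)
    ((posSemidef_gram ℝ fun j => Mᗮ.starProjection (r j)).smul hl.le) (d := (√l)⁻¹ • of a) fun η => by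
      rw [transpose_smul, smul_mulVec, smul_dotProduct, dotProduct_smul, smul_smul, ← mul_inv,
        Real.mul_self_sqrt hl.le, smul_eq_mul, inv_mul_le_iff₀ hl]
      simpa [dotProduct, mulVec, sq, mul_comm] using ha η
  rw [← smul_add, ← gram_split, e, e, ← gram_comb (a := of a) h, ← gram_comb (a := of a)
    (r' := fun i => M.starProjection (r' i)) fun i => by simp [h]] at this
  simpa only [Zd, one_smul] using this

theorem cont_Zd (hl : 0 ≤ l) : Continuous fun r : ι → H => Zd l (gram ℝ r) := by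
  refine Continuous.inv₀ (Continuous.sqrt (Continuous.matrix_det (continuous_matrix fun i j => ?_)))
    fun r => (Real.sqrt_pos.2 (pd_one_add hl (posSemidef_gram ℝ r)).det_pos).ne'
  simp only [Matrix.add_apply, Matrix.smul_apply, gram_apply]
  fun_prop

theorem tendsto_Zd {α : Type*} {F : Filter α} {B : α → Matrix ι ι ℝ} (hl : 0 ≤ l)
    (hA : A.PosSemidef) (h : ∀ i j, Tendsto (fun n => B n i j) F (𝓝 (A i j))) :
    Tendsto (fun n => Zd l (B n)) F (𝓝 (Zd l A)) := by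
  have : Continuous fun X : Matrix ι ι ℝ => √(1 + l • X).det := by fun_prop
  exact ((this.tendsto A).comp (tendsto_pi_nhds.2 fun i => tendsto_pi_nhds.2 (h i))).inv₀
    (Real.sqrt_pos.2 (pd_one_add hl hA).det_pos).ne'

theorem meas_Zd {α : Type*} [MeasurableSpace α] {μ : Measure α} {B : α → Matrix ι ι ℝ}
    (h : ∀ i j, AEMeasurable (fun s => B s i j) μ) : AEMeasurable (fun s => Zd l (B s)) μ := by
  simp only [Zd, det_apply', Matrix.add_apply, Matrix.smul_apply]
  fun_prop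

end

end Vale.Agent.P155.GT
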