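import Mathlib

/-!
# P155, Gaussian tilts: finite dimensional integrals (helper98)
-/

set_option linter.all false

open MeasureTheory Filter Topology Matrix Complex
open scoped MatrixOrder

namespace Vale.Agent.P155.GT

noncomputable section

variable {ι : Type*} [Fintype ι] [DecidableEq ι] {l : ℝ} {A B : Matrix ι ι ℝ}

/-- the tilt -/
def tilt (l : ℝ) (x : ι → ℝ) : ℝ := Real.exp (-(l / 2) * ∑ j, x j ^ 2)

/-- the partition function -/
def Zd (l : ℝ) (A : Matrix ι ι ℝ) : ℝ := (Real.sqrt (1 + l • A).det)⁻¹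

theorem tilt_pos (l : ℝ) (x : ι → ℝ) : 0 < tilt l x := Real.exp_pos _

theorem tilt_le (hl : 0 ≤ l) (x : ι → ℝ) : tilt l x ≤ 1 :=
  Real.exp_le_one_iff.2 (mul_nonpos_of_nonpos_of_nonneg (by linarith) (by positivity))

@[fun_prop] theorem cont_tilt (l : ℝ) : Continuous (tilt (ι := ι) l) := by
  unfold tilt
  fun_prop

theorem pd_one_add (hl : 0 ≤ l) (hA : A.PosSemidef) : (1 + l • A).PosDef :=
  PosDef.one.add_posSemidef (hA.smul hl)

theorem Zd_pos (hl : 0 ≤ l) (hA : A.PosSemidef) : 0 < Zd l A :=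
  inv_pos.2 (Real.sqrt_pos.2 (pd_one_add hl hA).det_pos)

theorem tilt_one_c (x : ι → ℝ) :
    (tilt 1 x : ℂ) = cexp (-(1 / 2) * ∑ i, (x i : ℂ) ^ 2) := by
  simp [tilt]

theorem int_tilt : Integrable (tilt (ι := ι) 1) := by
  have := (GaussianFourier.integrable_cexp_neg_mul_sum_add (ι := ι) (b := 1 / 2) (by simp) 0).norm
  refine this.congr (ae_of_all _ fun x => ?_)
  simp only [Pi.zero_apply, zero_mul, Finset.sum_const_zero, add_zero, ← tilt_one_c,
    Complex.norm_real, Real.norm_of_nonneg (tilt_pos _ _).le]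

variable (ι) in
/-- the normalisation -/
def k0 : ℝ := ∫ ξ : ι → ℝ, tilt 1 ξ

theorem k0_pos : 0 < k0 ι := integral_exp_pos int_tilt

variable (ι) in
/-- the standard Gaussian -/
def gam : Measure (ι → ℝ) := volume.withDensity fun ξ => ENNReal.ofReal (tilt 1 ξ / k0 ι)

theorem int_gam {E : Type*} [NormedAddCommGroup E] [NormedSpace ℝ E] (G : (ι → ℝ) → E) :
    ∫ ξ, G ξ ∂gam ι = (k0 ι)⁻¹ • ∫ ξ, tilt 1 ξ • G ξ := by
  rw [gam, integral_withDensity_eq_integral_toReal_smul (by fun_prop) (by simp), ← integral_smul]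
  congr 1
  funext ξ
  rw [ENNReal.toReal_ofReal (div_pos (tilt_pos _ _) k0_pos).le, smul_smul, div_eq_inv_mul]

instance : IsProbabilityMeasure (gam ι) := ⟨by
  rw [gam, withDensity_apply _ MeasurableSet.univ, Measure.restrict_univ,
    ← ofReal_integral_eq_lintegral_ofReal (int_tilt.div_const _)
      (ae_of_all _ fun ξ => (div_pos (tilt_pos _ _) k0_pos).le), integral_div, ← k0,
    div_self k0_pos.ne', ENNReal.ofReal_one]⟩

/-- Hubbard-Stratonovich -/
theorem hs1 (x : ι → ℝ) : ∫ ξ, cexp (I * (∑ j, ξ j * x j : ℝ)) ∂gam ι = tilt 1 x := by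
  have h := GaussianFourier.integral_cexp_neg_mul_sum_add (ι := ι) (b := 1 / 2) (by simp)
  have h0 := h 0
  have h1 := h fun j => I * x j
  simp only [Pi.zero_apply, zero_mul, Finset.sum_const_zero, add_zero, ← tilt_one_c,
    integral_complex_ofReal, ← k0.eq_1, ne_eq, OfNat.ofNat_ne_zero, not_false_eq_true, zero_pow,
    zero_div, Complex.exp_zero, mul_one] at h0
  rw [← h0] at h1
  rw [int_gam, show (fun ξ : ι → ℝ => tilt 1 ξ • cexp (I * (∑ j, ξ j * x j : ℝ))) =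
    fun ξ => cexp (-(1 / 2) * ∑ i, (ξ i : ℂ) ^ 2 + ∑ i, I * x i * ξ i) from funext fun ξ => by
      rw [Complex.exp_add, ← tilt_one_c, real_smul]
      simp [Finset.mul_sum, mul_comm, mul_left_comm], h1, real_smul, ofReal_inv,
    inv_mul_cancel_left₀ (ofReal_ne_zero.2 k0_pos.ne'), tilt_one_c]
  simp only [mul_pow, I_sq, ← Finset.mul_sum]
  congr 1
  ring

theorem hs (hl : 0 ≤ l) (x : ι → ℝ) :
    ∫ ξ, cexp (I * (∑ j, √l * ξ j * x j : ℝ)) ∂gam ι = tilt l x := by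
  have := hs1 fun j => √l * x j
  simp only [mul_left_comm _ √l, ← mul_assoc] at this
  rw [this]
  simp only [tilt, mul_pow, Real.sq_sqrt hl, ← Finset.mul_sum]
  congr 2
  ring

/-- the determinant formula -/
theorem int_quad {M : Matrix ι ι ℝ} (hM : M.PosDef) :
    ∫ ξ : ι → ℝ, Real.exp (-(ξ ⬝ᵥ M *ᵥ ξ) / 2) = (√M.det)⁻¹ * k0 ι := by
  obtain ⟨S, rfl⟩ := CStarAlgebra.nonneg_iff_eq_star_mul_self.mp hM.posSemidef.nonneg
  have hd : (star S * S).det = S.det ^ 2 := by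
    rw [det_mul, star_eq_conjTranspose, det_conjTranspose, star_trivial, sq]
  have h0 : S.det ≠ 0 := fun h => hM.det_pos.ne' (by rw [hd, h]; simp)
  have h1 := integral_map (μ := volume) (φ := toLin' S) (f := tilt 1)
    (toLin' S).continuous_of_finiteDimensional.aemeasurable (cont_tilt 1).aestronglyMeasurable
  rw [Real.map_matrix_volume_pi_eq_smul_volume_pi h0, integral_smul_measure,
    ENNReal.toReal_ofReal (abs_nonneg _), smul_eq_mul, ← k0] at h1
  rw [hd, Real.sqrt_sq_eq_abs, ← abs_inv, h1]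
  congr 1
  funext ξ
  rw [tilt, ← mulVec_mulVec, dotProduct_mulVec, star_eq_conjTranspose,
    conjTranspose_eq_transpose_of_trivial, vecMul_transpose, toLin'_apply]
  simp only [dotProduct, sq]
  congr 1
  ring

theorem tilt_mul (A : Matrix ι ι ℝ) (ξ : ι → ℝ) : tilt 1 ξ * Real.exp (-(l * (ξ ⬝ᵥ A *ᵥ ξ)) / 2) =
    Real.exp (-(ξ ⬝ᵥ (1 + l • A) *ᵥ ξ) / 2) := by
  rw [tilt, ← Real.exp_add, add_mulVec, one_mulVec, smul_mulVec, dotProduct_add, dotProduct_smul]
  simp only [dotProduct, sq, smul_eq_mul]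
  congr 1
  ring

theorem gam_quad (hl : 0 ≤ l) (hA : A.PosSemidef) :
    ∫ ξ, Real.exp (-(l * (ξ ⬝ᵥ A *ᵥ ξ)) / 2) ∂gam ι = Zd l A := by
  simp only [int_gam, smul_eq_mul, tilt_mul, int_quad (pd_one_add hl hA), Zd]
  rw [mul_comm, mul_inv_cancel_right₀ k0_pos.ne']

theorem quad_nonneg (hA : A.PosSemidef) (ξ : ι → ℝ) : 0 ≤ ξ ⬝ᵥ A *ᵥ ξ := by
  simpa using hA.dotProduct_mulVec_nonneg ξ

theorem exp_quad_le (hl : 0 ≤ l) (hA : A.PosSemidef) (ξ : ι → ℝ) :
    Real.exp (-(l * (ξ ⬝ᵥ A *ᵥ ξ)) / 2) ≤ 1 :=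
  Real.exp_le_one_iff.2 (by have := mul_nonneg hl (quad_nonneg hA ξ); linarith)

theorem int_exp_quad (hl : 0 ≤ l) (hA : A.PosSemidef) :
    Integrable (fun ξ => Real.exp (-(l * (ξ ⬝ᵥ A *ᵥ ξ)) / 2)) (gam ι) :=
  Integrable.of_bound (Continuous.aestronglyMeasurable (by fun_prop)) 1 (ae_of_all _ fun ξ => by
    rw [Real.norm_of_nonneg (Real.exp_pos _).le]
    exact exp_quad_le hl hA ξ)

/-- monotonicity of the partition function -/
theorem Zd_anti (hl : 0 ≤ l) (hA : A.PosSemidef) (hB : B.PosSemidef)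
    (h : ∀ ξ, ξ ⬝ᵥ B *ᵥ ξ ≤ ξ ⬝ᵥ A *ᵥ ξ) : Zd l A ≤ Zd l B := by
  rw [← gam_quad hl hA, ← gam_quad hl hB]
  refine integral_mono (int_exp_quad hl hA) (int_exp_quad hl hB) fun ξ => Real.exp_le_exp.2 ?_
  have := mul_le_mul_of_nonneg_left (h ξ) hl
  linarith

theorem Zd_le (hl : 0 ≤ l) (hA : A.PosSemidef) : Zd l A ≤ 1 := by
  simpa [Zd] using Zd_anti hl hA .zero fun ξ => by simpa using quad_nonneg hA ξ

theorem Zd_div (hl : 0 ≤ l) (hA : A.PosSemidef) (hB : B.PosSemidef) : Zd l B / Zd l A =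
    Real.exp ((Real.log (1 + l • A).det - Real.log (1 + l • B).det) / 2) := by
  have a := (pd_one_add hl hA).det_pos
  have b := (pd_one_add hl hB).det_pos
  rw [Real.exp_half, Real.exp_sub, Real.exp_log a, Real.exp_log b, Real.sqrt_div a.le, Zd, Zd,
    inv_div_inv]

/-! ## the tilted variance -/

variable {H : Type*} [NormedAddCommGroup H] [InnerProductSpace ℝ H]

/-- the minimiser -/
def cv (r : ι → H) (g : H) : ι → ℝ := (1 + gram ℝ r)⁻¹ *ᵥ fun j => inner ℝ (r j) g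

/-- the tilted variance, `l = 1` -/
def q1 (r : ι → H) (g : H) : ℝ := ‖g - ∑ j, cv r g j • r j‖ ^ 2 + ∑ j, cv r g j ^ 2

/-- the tilted variance -/
def qf (l : ℝ) (r : ι → H) (g : H) : ℝ := q1 (fun j => √l • r j) g

theorem gram_quad (r : ι → H) (ξ : ι → ℝ) : ξ ⬝ᵥ gram ℝ r *ᵥ ξ = ‖∑ j, ξ j • r j‖ ^ 2 := by
  simpa using star_dotProduct_gram_mulVec (𝕜 := ℝ) r ξ ξ

theorem inner_cv (r : ι → H) (g : H) (i : ι) :
    inner ℝ (r i) (g - ∑ j, cv r g j • r j) = cv r g i := by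
  have hu := (PosDef.one.add_posSemidef (posSemidef_gram ℝ r)).isUnit
  have := congrFun (show (1 + gram ℝ r) *ᵥ cv r g = fun j => inner ℝ (r j) g by
    rw [cv, mulVec_mulVec, mul_nonsing_inv _ ((isUnit_iff_isUnit_det _).1 hu), one_mulVec]) i
  rw [add_mulVec, one_mulVec] at this
  simp only [inner_sub_right, ← this, inner_sum, inner_smul_right, Pi.add_apply, mulVec,
    dotProduct, gram_apply, mul_comm, add_sub_cancel_right]

theorem sq_eq (r : ι → H) (g : H) (η : ι → ℝ) :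
    ‖g - ∑ j, (η + cv r g) j • r j‖ ^ 2 + ∑ j, (η + cv r g) j ^ 2 =
      q1 r g + η ⬝ᵥ (1 + (1 : ℝ) • gram ℝ r) *ᵥ η := by
  have e : inner ℝ (g - ∑ j, cv r g j • r j) (∑ j, η j • r j) = ∑ j, η j * cv r g j := by
    simp only [inner_sum, inner_smul_right, real_inner_comm (r _), inner_cv]
  simp only [Pi.add_apply, add_smul, Finset.sum_add_distrib, add_sq]
  rw [add_comm (∑ j, η j • r j), ← sub_sub, norm_sub_sq_real, e, q1, one_smul, add_mulVec,
    one_mulVec, dotProduct_add, gram_quad]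
  simp only [dotProduct, sq, mul_assoc, ← Finset.mul_sum]
  ring

theorem q1_le (r : ι → H) (g : H) (ξ : ι → ℝ) :
    q1 r g ≤ ‖g - ∑ j, ξ j • r j‖ ^ 2 + ∑ j, ξ j ^ 2 := by
  have := sq_eq r g (ξ - cv r g)
  rw [sub_add_cancel] at this
  rw [this]
  exact le_add_of_nonneg_right
    (quad_nonneg (pd_one_add zero_le_one (posSemidef_gram ℝ r)).posSemidef _)

theorem qf_le (hl : 0 < l) (r : ι → H) (g : H) (ξ : ι → ℝ) :
    qf l r g ≤ ‖g - ∑ j, ξ j • r j‖ ^ 2 + (∑ j, ξ j ^ 2) / l := by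
  have := q1_le (fun j => √l • r j) g fun j => ξ j / √l
  simpa only [qf, smul_smul, div_mul_cancel₀ _ (Real.sqrt_pos.2 hl).ne', div_pow, Real.sq_sqrt hl.le,
    ← Finset.sum_div] using this

theorem qf_le_norm (l : ℝ) (r : ι → H) (g : H) : qf l r g ≤ ‖g‖ ^ 2 := by
  simpa [qf] using q1_le (fun j => √l • r j) g 0

theorem qf_ge {M : Submodule ℝ H} [M.HasOrthogonalProjection] {r : ι → H} (h : ∀ j, r j ∈ Mᗮ)
    (l : ℝ) (g : H) : ‖M.starProjection g‖ ^ 2 ≤ qf l r g := by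
  refine le_add_of_le_of_nonneg (pow_le_pow_left₀ (norm_nonneg _) ?_ 2) (by positivity)
  refine le_of_eq_of_le ?_ (M.norm_starProjection_apply_le _)
  rw [map_sub, (M.starProjection_apply_eq_zero_iff).2
    (Submodule.sum_mem _ fun j _ => Mᗮ.smul_mem _ (Mᗮ.smul_mem _ (h j))), sub_zero]

theorem gram_smul (hl : 0 ≤ l) (r : ι → H) : gram ℝ (fun j => √l • r j) = l • gram ℝ r := by
  ext i j
  simp [inner_smul_left, inner_smul_right, ← mul_assoc, Real.mul_self_sqrt hl]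

theorem gam_shift (hl : 0 ≤ l) (r : ι → H) (g : H) :
    ∫ ξ, Real.exp (-(‖g - ∑ j, (√l * ξ j) • r j‖ ^ 2 / 2)) ∂gam ι =
      Zd l (gram ℝ r) * Real.exp (-(qf l r g / 2)) := by
  set r' : ι → H := fun j => √l • r j with hr
  have h := int_quad (pd_one_add zero_le_one (posSemidef_gram ℝ r'))
  rw [int_gam, ← integral_add_right_eq_self _ (cv r' g), show (fun η => tilt 1 (η + cv r' g) •
    Real.exp (-(‖g - ∑ j, (√l * (η + cv r' g) j) • r j‖ ^ 2 / 2))) = fun η =>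
      Real.exp (-(η ⬝ᵥ (1 + (1 : ℝ) • gram ℝ r') *ᵥ η) / 2) * Real.exp (-(qf l r g / 2)) from
    funext fun η => by
      have := sq_eq r' g η
      simp only [hr, smul_smul, mul_comm _ √l] at this
      rw [tilt, smul_eq_mul, ← Real.exp_add, ← Real.exp_add, qf]
      congr 1
      linarith, integral_mul_const, h, hr, gram_smul hl, one_smul, Zd, smul_eq_mul]
  have := (k0_pos (ι := ι)).ne'
  field_simp

end

end Vale.Agent.P155.GT
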