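import Mathlib

/-!
# P155, Gaussian tilts: trigonometric polynomials on product spaces (helper98)
-/

set_option linter.all false

open MeasureTheory Filter Topology Complex
open scoped ComplexConjugate

namespace Vale.Agent.P155.GT

noncomputable section

variable {J : Type*} {Θ : Type*} [MeasurableSpace Θ] {P : Measure Θ} {X : Θ → J → ℝ}

/-- the characters -/
def ex (s : Finset J) (t : J → ℝ) (x : J → ℝ) : ℂ := cexp (I * (∑ i ∈ s, t i * x i : ℝ))

@[fun_prop] theorem meas_ex (s : Finset J) (t : J → ℝ) : Measurable (ex s t) := by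
  unfold ex
  fun_prop

theorem norm_ex (s : Finset J) (t x : J → ℝ) : ‖ex s t x‖ = 1 := norm_exp_I_mul_ofReal _

theorem conj_ex (s : Finset J) (t x : J → ℝ) : conj (ex s t x) = ex s (-t) x := by
  rw [ex, ← exp_conj, map_mul, conj_I, conj_ofReal, ex]
  simp

/-- bounded measurable functions -/
def Bm {α : Type*} [MeasurableSpace α] (F : α → ℂ) : Prop := Measurable F ∧ ∃ C, ∀ x, ‖F x‖ ≤ C

theorem bm_ex (s : Finset J) (t : J → ℝ) : Bm (ex s t) :=
  ⟨meas_ex s t, 1, fun x => (norm_ex s t x).le⟩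

theorem Bm.comp {α β : Type*} [MeasurableSpace α] [MeasurableSpace β] {F : α → ℂ} (h : Bm F)
    {X : β → α} (hX : Measurable X) : Bm fun s => F (X s) :=
  ⟨h.1.comp hX, h.2.imp fun _ h _ => h _⟩

theorem Bm.mul_int {F G : Θ → ℂ} (h : Bm F) (hG : Integrable G P) :
    Integrable (fun s => F s * G s) P :=
  hG.bdd_mul h.1.aestronglyMeasurable (ae_of_all _ h.2.choose_spec)

theorem Bm.int [IsFiniteMeasure P] {F : Θ → ℂ} (h : Bm F) : Integrable F P :=
  .of_bound h.1.aestronglyMeasurable _ (ae_of_all _ h.2.choose_spec)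

theorem Bm.add {F G : Θ → ℂ} (h : Bm F) (h' : Bm G) : Bm (F + G) := by
  obtain ⟨h1, C, h2⟩ := h
  obtain ⟨h3, C', h4⟩ := h'
  exact ⟨h1.add h3, C + C', fun x => (norm_add_le _ _).trans (add_le_add (h2 x) (h4 x))⟩

theorem Bm.smul {F : Θ → ℂ} (h : Bm F) (a : ℂ) : Bm (a • F) := by
  obtain ⟨h1, C, h2⟩ := h
  exact ⟨h1.const_smul a, ‖a‖ * C, fun x => (norm_mul_le a (F x)).trans
    (mul_le_mul_of_nonneg_left (h2 x) (norm_nonneg _))⟩

theorem Bm.sub {F G : Θ → ℂ} (h : Bm F) (h' : Bm G) : Bm (F - G) := by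
  simpa [sub_eq_add_neg] using h.add (h'.smul (-1))

theorem Bm.mul {F G : Θ → ℂ} (h : Bm F) (h' : Bm G) : Bm fun s => F s * G s := by
  obtain ⟨h1, C, h2⟩ := h
  obtain ⟨h3, C', h4⟩ := h'
  exact ⟨h1.mul h3, C * C', fun x => (norm_mul_le _ _).trans
    (mul_le_mul (h2 x) (h4 x) (norm_nonneg _) ((norm_nonneg _).trans (h2 x)))⟩

theorem Bm.ofReal {F : Θ → ℝ} (h : Measurable F) {C : ℝ} (hC : ∀ x, |F x| ≤ C) :
    Bm fun x => (F x : ℂ) :=
  ⟨measurable_ofReal.comp h, C, fun x => by simpa using hC x⟩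

/-- finite measures on product spaces are determined by the characters -/
theorem ext_ex {μ ν : Measure (J → ℝ)} [IsFiniteMeasure μ] [IsFiniteMeasure ν]
    (h : ∀ s t, ∫ x, ex s t x ∂μ = ∫ x, ex s t x ∂ν) : μ = ν := by
  classical
  refine IsProjectiveLimit.unique (P := fun s => ν.map s.restrict) (fun s => ?_) fun _ => rfl
  refine Measure.ext_of_charFunDual (funext fun L => ?_)
  have e : ∀ x : J → ℝ, cexp (L (s.restrict x) * I) =
      ex s (fun i => if h : i ∈ s then L (Pi.single ⟨i, h⟩ 1) else 0) x := fun x => by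
    rw [ex, mul_comm, ← Finset.sum_coe_sort s, pi_eq_sum_univ' (s.restrict x), map_sum]
    simp [mul_comm]
  have hc : Continuous fun v => cexp (L v * I) := by fun_prop
  rw [charFunDual_apply, charFunDual_apply, integral_map (Finset.measurable_restrict s).aemeasurable
    hc.aestronglyMeasurable, integral_map (Finset.measurable_restrict s).aemeasurable
    hc.aestronglyMeasurable]
  simp only [e, h]

theorem int_wd (hX : Measurable X) {g : Θ → ℝ} (hg : Integrable g P) {F : (J → ℝ) → ℂ}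
    (hF : Measurable F) : ∫ x, F x ∂(P.withDensity fun s => ENNReal.ofReal (g s)).map X =
      ∫ s, F (X s) * (max (g s) 0 : ℝ) ∂P := by
  rw [integral_map hX.aemeasurable hF.aestronglyMeasurable,
    integral_withDensity_eq_integral_toReal_smul₀ hg.1.aemeasurable.ennreal_ofReal (by simp)]
  simp only [ENNReal.toReal_ofReal', real_smul, mul_comm]

theorem uq_re (hX : Measurable X) {g : Θ → ℝ} (hg : Integrable g P)
    (h : ∀ s t, ∫ a, ex s t (X a) * g a ∂P = 0) {F : (J → ℝ) → ℂ} (hF : Bm F) :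
    ∫ a, F (X a) * g a ∂P = 0 := by
  have e : ∀ {F : (J → ℝ) → ℂ}, Bm F → ∫ a, F (X a) * g a ∂P =
      ∫ x, F x ∂(P.withDensity fun s => ENNReal.ofReal (g s)).map X -
        ∫ x, F x ∂(P.withDensity fun s => ENNReal.ofReal (-g s)).map X := fun hF => by
    rw [int_wd hX hg hF.1, int_wd hX (g := fun s => -g s) hg.neg hF.1]
    refine Eq.trans (integral_congr_ae (ae_of_all _ fun a => ?_)) (integral_sub
      ((hF.comp hX).mul_int hg.pos_part.ofReal) ((hF.comp hX).mul_int hg.neg.pos_part.ofReal))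
    change _ = _ * ((max (g a) 0 : ℝ) : ℂ) - _ * ((max (-g a) 0 : ℝ) : ℂ)
    rw [← mul_sub, ← ofReal_sub, max_zero_sub_max_neg_zero_eq_self]
  have := isFiniteMeasure_withDensity_ofReal hg.2
  have := isFiniteMeasure_withDensity_ofReal (f := fun s => -g s) hg.neg.2
  rw [e hF, ext_ex fun s t => sub_eq_zero.1 ((e (bm_ex s t)).symm.trans (h s t)), sub_self]

/-- **uniqueness**: from the characters to bounded measurable functions -/
theorem uq (hX : Measurable X) {G : Θ → ℂ} (hG : Integrable G P)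
    (h : ∀ s t, ∫ a, ex s t (X a) * G a ∂P = 0) {F : (J → ℝ) → ℂ} (hF : Bm F) :
    ∫ a, F (X a) * G a ∂P = 0 := by
  have hc : Integrable (fun a => conj (G a)) P := (conjLIE.integrable_comp_iff).2 hG
  have h' : ∀ s t, ∫ a, ex s t (X a) * conj (G a) ∂P = 0 := fun s t => by
    have := congrArg conj (h s (-t))
    simpa only [← integral_conj, map_mul, conj_ex, neg_neg, map_zero] using this
  have k : ∀ (u v : ℂ) (g : Θ → ℝ), Integrable g P → (∀ a, (g a : ℂ) = u * G a + v * conj (G a)) →
      ∫ a, F (X a) * g a ∂P = 0 := fun u v g hg e => uq_re hX hg (fun s t => by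
    have b := (bm_ex s t).comp hX
    simp only [e, mul_add, mul_left_comm _ u, mul_left_comm _ v]
    rw [integral_add ((b.mul_int hG).const_mul u) ((b.mul_int hc).const_mul v), integral_const_mul,
      integral_const_mul, h, h', mul_zero, mul_zero, add_zero]) hF
  have h1 := k (1 / 2) (1 / 2) _ hG.re fun a => by rw [RCLike.re_to_complex, re_eq_add_conj]; ring
  have h2 := k (-I / 2) (I / 2) _ hG.im fun a => by
    rw [RCLike.im_to_complex, im_eq_sub_conj]
    field_simp
    linear_combination (G a - conj (G a)) * I_sq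
  have b := hF.comp hX
  have := integral_add (b.mul_int hG.re.ofReal) ((b.mul_int hG.im.ofReal).const_mul I)
  rw [integral_const_mul] at this
  refine Eq.trans ?_ (this.trans ((congrArg₂ (fun x y => x + I * y) h1 h2).trans (by simp)))
  congr 1
  funext a
  rw [mul_left_comm, ← mul_add, mul_comm I]
  exact congrArg _ (re_add_im _).symm

variable (J) in
/-- trigonometric polynomials -/
def TP : Submodule ℂ ((J → ℝ) → ℂ) :=
  Submodule.span ℂ (Set.range fun p : Finset J × (J → ℝ) => ex p.1 p.2)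

theorem TP.bm {e : (J → ℝ) → ℂ} (h : e ∈ TP J) : Bm e := by
  induction h using Submodule.span_induction with
  | mem _ h => exact h.choose_spec ▸ bm_ex _ _
  | zero => exact ⟨measurable_zero, 0, by simp⟩
  | add _ _ _ _ h h' => exact h.add h'
  | smul a _ _ h => exact h.smul a

/-- **density of the trigonometric polynomials** -/
theorem trig (ν : Measure (J → ℝ)) [IsFiniteMeasure ν] {F : (J → ℝ) → ℂ} (hF : Bm F) {ε : ℝ}
    (hε : 0 < ε) : ∃ e ∈ TP J, ∫ x, ‖F x - e x‖ ∂ν ≤ ε := by
  have m : ∀ {F : (J → ℝ) → ℂ}, Bm F → MemLp F 2 ν := fun h =>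
    .of_bound h.1.aestronglyMeasurable _ (ae_of_all _ h.2.choose_spec)
  set T := Submodule.span ℂ (Set.range fun p : Finset J × (J → ℝ) => (m (bm_ex p.1 p.2)).toLp)
  have hT : T.topologicalClosure = ⊤ := by
    refine Submodule.topologicalClosure_eq_top_iff.2 (T.orthogonal.eq_bot_iff.2 fun y hy => ?_)
    have hi : Integrable y ν := (Lp.memLp y).integrable one_le_two
    refine Lp.eq_zero_iff_ae_eq_zero.2 (hi.ae_eq_zero_of_forall_setIntegral_eq_zero fun A hA _ => ?_)
    have := uq measurable_id hi (fun s t => by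
      have := hy _ (Submodule.subset_span ⟨(s, -t), rfl⟩)
      rw [L2.inner_def] at this
      refine Eq.trans (integral_congr_ae ?_) this
      filter_upwards [(m (bm_ex s (-t))).coeFn_toLp] with x hx
      rw [hx, RCLike.inner_apply, conj_ex, neg_neg, mul_comm, id]) (F := A.indicator 1)
      ⟨measurable_one.indicator hA, 1, fun x => (norm_indicator_le_norm_self _ _).trans (by simp)⟩
    rw [← integral_indicator hA, ← this]
    congr 1
    funext x
    by_cases hx : x ∈ A <;> simp [hx]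
  have hc : Continuous fun y : Lp ℂ 2 ν => ∫ x, ‖y x‖ ∂ν := by
    have hm := (memLp_const (μ := ν) (p := 2) (1 : ℝ))
    have : (fun y : Lp ℂ 2 ν => ∫ x, ‖y x‖ ∂ν) =
        fun y => inner ℝ hm.toLp (lipschitzWith_one_norm.compLp norm_zero y) := funext fun y => by
      rw [L2.inner_def]
      refine integral_congr_ae ?_
      filter_upwards [hm.coeFn_toLp, lipschitzWith_one_norm.coeFn_compLp norm_zero y] with x h1 h2
      rw [h1, h2]
      simp
    rw [this]
    exact continuous_const.inner (lipschitzWith_one_norm.continuous_compLp norm_zero)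
  obtain ⟨y, h1, h2⟩ := mem_closure_iff_nhds.1 (show (m hF).toLp ∈ closure (T : Set _) by
      rw [← T.topologicalClosure_coe, hT]; trivial) _
    (((hc.comp (continuous_sub_left (m hF).toLp)).tendsto _).eventually_le_const (u := ε) (by
      rw [Function.comp, sub_self, integral_congr_ae (g := 0)
        ((Lp.coeFn_zero ℂ 2 ν).mono fun x hx => by rw [hx]; simp)]
      simpa using hε))
  obtain ⟨e, he, h3⟩ : ∃ e ∈ TP J, y =ᵐ[ν] e := by
    clear h1
    induction h2 using Submodule.span_induction with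
    | mem _ h =>
      obtain ⟨p, rfl⟩ := h
      exact ⟨_, Submodule.subset_span ⟨p, rfl⟩, MemLp.coeFn_toLp _⟩
    | zero => exact ⟨0, zero_mem _, Lp.coeFn_zero ℂ 2 ν⟩
    | add u v _ _ h h' =>
      obtain ⟨e, a, b⟩ := h
      obtain ⟨e', a', b'⟩ := h'
      exact ⟨e + e', add_mem a a', (Lp.coeFn_add u v).trans (b.add b')⟩
    | smul c u _ h =>
      obtain ⟨e, a, b⟩ := h
      exact ⟨c • e, Submodule.smul_mem _ c a, (Lp.coeFn_smul c u).trans (b.const_smul c)⟩
  refine ⟨e, he, le_of_eq_of_le (integral_congr_ae ?_) h1⟩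
  filter_upwards [Lp.coeFn_sub (m hF).toLp y, (m hF).coeFn_toLp, h3] with x a b c
  rw [a, Pi.sub_apply, b, c]

/-- **setwise convergence** of dominated functionals -/
theorem setwise [IsFiniteMeasure P] (hX : Measurable X) {Θ' : Type*} [MeasurableSpace Θ']
    {P' : Measure Θ'} [IsFiniteMeasure P'] {X' : Θ' → J → ℝ} (hX' : Measurable X') {κ : Type*}
    {L : Filter κ} {ρ : κ → Θ → ℂ} (hρ : ∀ k, Integrable (ρ k) P) {C : ℝ}
    (hC : ∀ᶠ k in L, ∀ F, Bm F → ‖∫ a, F (X a) * ρ k a ∂P‖ ≤ C * ∫ a, ‖F (X a)‖ ∂P)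
    (h : ∀ s t, Tendsto (fun k => ∫ a, ex s t (X a) * ρ k a ∂P) L (𝓝 (∫ a, ex s t (X' a) ∂P')))
    {F : (J → ℝ) → ℂ} (hF : Bm F) :
    Tendsto (fun k => ∫ a, F (X a) * ρ k a ∂P) L (𝓝 (∫ a, F (X' a) ∂P')) := by
  have h1 : ∀ e ∈ TP J, Tendsto (fun k => ∫ a, e (X a) * ρ k a ∂P) L (𝓝 (∫ a, e (X' a) ∂P')) :=
    fun e he => by
      induction he using Submodule.span_induction with
      | mem _ he => exact he.choose_spec ▸ h _ _
      | zero => simpa using tendsto_const_nhds
      | add u v hu hv a b =>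
        simp only [Pi.add_apply, add_mul, integral_add (((TP.bm hu).comp hX).mul_int (hρ _))
          (((TP.bm hv).comp hX).mul_int (hρ _)),
          integral_add ((TP.bm hu).comp hX').int ((TP.bm hv).comp hX').int]
        exact a.add b
      | smul c u _ a =>
        simp only [Pi.smul_apply, smul_eq_mul, mul_assoc, integral_const_mul]
        exact a.const_mul c
  refine Metric.tendsto_nhds.2 fun ε hε => ?_
  obtain ⟨e, he, h2⟩ := trig (P.map X + P'.map X') hF (ε := ε / (3 * (|C| + 1))) (by positivity)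
  have b := hF.sub (TP.bm he)
  simp only [← Pi.sub_apply F e] at h2
  rw [integral_add_measure b.int.norm b.int.norm,
    integral_map hX.aemeasurable b.1.norm.aestronglyMeasurable, integral_map hX'.aemeasurable
    b.1.norm.aestronglyMeasurable, le_div_iff₀ (by positivity)] at h2
  filter_upwards [hC, Metric.tendsto_nhds.1 (h1 e he) (ε / 3) (by positivity)] with k a1 a2
  have a3 := a1 _ b
  have a4 := norm_integral_le_integral_norm (μ := P') fun a => (F - e) (X' a)
  simp only [Pi.sub_apply, sub_mul] at a3 a4 h2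
  rw [integral_sub ((hF.comp hX).mul_int (hρ k)) (((TP.bm he).comp hX).mul_int (hρ k))] at a3
  rw [integral_sub (hF.comp hX').int ((TP.bm he).comp hX').int] at a4
  have a5 := dist_triangle4_right (∫ a, F (X a) * ρ k a ∂P) (∫ a, F (X' a) ∂P')
    (∫ a, e (X a) * ρ k a ∂P) (∫ a, e (X' a) ∂P')
  simp only [dist_eq_norm] at a2 a5 ⊢
  have n1 : 0 ≤ ∫ a, ‖F (X a) - e (X a)‖ ∂P := by positivity
  have n2 : 0 ≤ ∫ a, ‖F (X' a) - e (X' a)‖ ∂P' := by positivity
  nlinarith [le_abs_self C, abs_nonneg C, mul_nonneg (abs_nonneg C) n2]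

end

end Vale.Agent.P155.GT
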