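import Vale.Agent.P155T.A
import Vale.Agent.P155T.B

/-!
# P155, Gaussian tilts: isonormal processes (helper98)
-/

set_option linter.all false

open MeasureTheory Filter Topology Matrix Complex

namespace Vale.Agent.P155.GT

noncomputable section

variable {ι : Type*} [Fintype ι] [DecidableEq ι] {l : ℝ} {Θ : Type*} [MeasurableSpace Θ]
  {P : Measure Θ} [IsFiniteMeasure P]

theorem fub (hl : 0 ≤ l) {Ψ : Θ → ℂ} (hΨ : Integrable Ψ P) {X : Θ → ι → ℝ}
    (hX : AEMeasurable X P) : ∫ s, Ψ s * tilt l (X s) ∂P =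
      ∫ ξ, ∫ s, Ψ s * cexp (I * (∑ j, √l * ξ j * X s j : ℝ)) ∂P ∂gam ι := by
  rw [integral_integral_swap]
  · simp only [integral_const_mul, hs hl]
  · refine (hΨ.comp_snd _).mul_bdd (c := 1) (AEMeasurable.aestronglyMeasurable ?_)
      (ae_of_all _ fun z => (norm_exp_I_mul_ofReal _).le)
    have := hX.comp_snd (μ := gam ι)
    fun_prop

/-- **the conditional partition function** -/
theorem tilt_cond (hl : 0 ≤ l) {Ψ : Θ → ℝ} (hΨ : Integrable Ψ P) {X : Θ → ι → ℝ}
    (hX : AEMeasurable X P) {A : Θ → Matrix ι ι ℝ} (hA : ∀ i j, AEMeasurable (fun s => A s i j) P)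
    (hp : ∀ᵐ s ∂P, Ψ s ≠ 0 → (A s).PosSemidef)
    (h : ∀ ξ : ι → ℝ, ∫ s, (Ψ s : ℂ) * cexp (I * (∑ j, ξ j * X s j : ℝ)) ∂P =
      ∫ s, (Ψ s : ℂ) * cexp (-(ξ ⬝ᵥ A s *ᵥ ξ / 2 : ℝ)) ∂P) :
    ∫ s, Ψ s * tilt l (X s) ∂P = ∫ s, Ψ s * Zd l (A s) ∂P := by
  have e : ∀ (ξ : ι → ℝ) s, (Ψ s : ℂ) * cexp (-((fun j => √l * ξ j) ⬝ᵥ A s *ᵥ (fun j => √l * ξ j) / 2
      : ℝ)) = (Ψ s * Real.exp (-(l * (ξ ⬝ᵥ A s *ᵥ ξ)) / 2) : ℝ) := fun ξ s => by
    rw [show (fun j => √l * ξ j) = √l • ξ from rfl, mulVec_smul, smul_dotProduct, dotProduct_smul,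
      smul_smul, Real.mul_self_sqrt hl, smul_eq_mul, neg_div]
    push_cast
    rfl
  have := fub hl hΨ.ofReal hX
  simp only [coe_algebraMap, h, e, ← ofReal_mul, integral_complex_ofReal, ofReal_inj] at this
  rw [this, integral_integral_swap]
  · refine integral_congr_ae (hp.mono fun s hs => ?_)
    by_cases h0 : Ψ s = 0
    · simp [h0]
    · simp only [integral_const_mul, gam_quad hl (hs h0)]
  · refine (hΨ.norm.comp_snd _).mono' ((hΨ.comp_snd _).1.mul
      (AEMeasurable.aestronglyMeasurable ?_)) ?_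
    · have := fun i j => (hA i j).comp_snd (μ := gam ι)
      simp only [dotProduct, mulVec]
      fun_prop
    · filter_upwards [Measure.quasiMeasurePreserving_snd.ae hp] with z hz
      by_cases h0 : Ψ z.2 = 0
      · simp [Function.uncurry, h0]
      · rw [Function.uncurry, norm_mul, Real.norm_of_nonneg (Real.exp_pos _).le]
        exact mul_le_of_le_one_right (norm_nonneg _) (exp_quad_le hl (hz h0) _)

variable {H : Type*} [NormedAddCommGroup H] [InnerProductSpace ℝ H] {J : Type*}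

/-- **the conditional tilted characteristic functional** -/
theorem tilt_cond_char (hl : 0 ≤ l) {Ψ Ψ' : Θ → ℂ} (hΨ : Integrable Ψ P) (hΨ' : Integrable Ψ' P)
    {X : Θ → ι → ℝ} (hX : AEMeasurable X P) {r : Θ → ι → H} {g : Θ → H}
    (h1 : ∀ i j, AEMeasurable (fun s => inner ℝ (r s i) (r s j)) P)
    (h2 : ∀ i, AEMeasurable (fun s => inner ℝ (g s) (r s i)) P)
    (h3 : AEMeasurable (fun s => ‖g s‖) P)
    (h : ∀ ξ : ι → ℝ, ∫ s, Ψ s * cexp (I * (∑ j, ξ j * X s j : ℝ)) ∂P =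
      ∫ s, Ψ' s * cexp (-(‖g s + ∑ j, ξ j • r s j‖ ^ 2 / 2 : ℝ)) ∂P) :
    ∫ s, Ψ s * tilt l (X s) ∂P =
      ∫ s, Ψ' s * (Zd l (gram ℝ (r s)) * Real.exp (-(qf l (r s) (g s) / 2)) : ℝ) ∂P := by
  have := fub (P := P) hl hΨ hX.neg
  simp only [tilt, Pi.neg_apply, neg_sq, mul_neg, ← neg_mul, h] at this
  simp only [neg_mul, neg_smul, Finset.sum_neg_distrib, ← sub_eq_add_neg] at this
  simp only [tilt, neg_mul]
  rw [this, integral_integral_swap]
  · simp only [integral_const_mul, ← gam_shift hl, ← integral_complex_ofReal, ofReal_exp, ofReal_neg]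
  · refine (hΨ'.comp_snd _).mul_bdd (c := 1) (AEMeasurable.aestronglyMeasurable ?_)
      (ae_of_all _ fun z => ?_)
    · have := fun i j => (h1 i j).comp_snd (μ := gam ι)
      have := fun i => (h2 i).comp_snd (μ := gam ι)
      have := h3.comp_snd (μ := gam ι)
      simp only [norm_sub_sq_real, ← gram_quad, inner_sum, inner_smul_right, dotProduct, mulVec,
        gram_apply]
      fun_prop
    · rw [← ofReal_neg, ← ofReal_exp, norm_real, Real.norm_of_nonneg (Real.exp_pos _).le]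
      exact Real.exp_le_one_iff.2 (neg_nonpos.2 (by positivity))

theorem Zd_proj (hl : 0 ≤ l) {M M' : Submodule ℝ H} [M.HasOrthogonalProjection]
    [M'.HasOrthogonalProjection] (h : M' ≤ M) (r : ι → H) :
    Zd l (gram ℝ fun j => M.starProjection (r j)) ≤
      Zd l (gram ℝ fun j => M'.starProjection (r j)) :=
  Zd_anti hl (posSemidef_gram _ _) (posSemidef_gram _ _) fun ξ => by
    simp only [gram_quad, ← map_smul, ← map_sum]
    rw [← Submodule.starProjection_comp_starProjection_of_le h]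
    exact pow_le_pow_left₀ (norm_nonneg _) (M'.norm_starProjection_apply_le _) 2

theorem Zd_proj' (hl : 0 ≤ l) (M : Submodule ℝ H) [M.HasOrthogonalProjection] (r : ι → H) :
    Zd l (gram ℝ r) ≤ Zd l (gram ℝ fun j => M.starProjection (r j)) := by
  simpa [Submodule.starProjection_top] using Zd_proj hl (le_top (a := M)) r

/-- isonormal processes -/
def Iso (W : H →ₗᵢ[ℝ] Lp ℝ 2 P) : Prop :=
  ∀ f, ∫ s, cexp (I * (W f s : ℝ)) ∂P = cexp (-(‖f‖ ^ 2 / 2 : ℝ))

variable {W : H →ₗᵢ[ℝ] Lp ℝ 2 P} {f : J → H} {g h : H} {F : (J → ℝ) → ℂ}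

omit [IsFiniteMeasure P] in
theorem meas_W (W : H →ₗᵢ[ℝ] Lp ℝ 2 P) (f : J → H) : Measurable fun s i => W (f i) s :=
  measurable_pi_lambda _ fun _ => (Lp.stronglyMeasurable _).measurable

omit [IsFiniteMeasure P] in
theorem W_sum (W : H →ₗᵢ[ℝ] Lp ℝ 2 P) (g : H) (S : Finset J) (t : J → ℝ) (f : J → H) :
    W (g + ∑ i ∈ S, t i • f i) =ᵐ[P] fun s => W g s + ∑ i ∈ S, t i * W (f i) s := by
  classical
  induction S using Finset.induction_on with
  | empty => simp
  | insert i S hi ih =>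
    rw [Finset.sum_insert hi, add_left_comm, map_add, map_smul]
    filter_upwards [ih, Lp.coeFn_add (t i • W (f i)) (W (g + ∑ i ∈ S, t i • f i)),
      Lp.coeFn_smul (t i) (W (f i))] with s a b c
    rw [b, Pi.add_apply, a, c, Finset.sum_insert hi, add_left_comm]
    rfl

omit [IsFiniteMeasure P] in
theorem W_exp (W : H →ₗᵢ[ℝ] Lp ℝ 2 P) (g : H) (S : Finset J) (t : J → ℝ) (f : J → H) :
    ∀ᵐ s ∂P, ex S t (fun i => W (f i) s) * cexp (I * (W g s : ℝ)) =
      cexp (I * (W (g + ∑ i ∈ S, t i • f i) s : ℝ)) :=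
  (W_sum W g S t f).mono fun s hs => by
    rw [hs, ex, ← Complex.exp_add, ← mul_add, ← ofReal_add, add_comm]

omit [IsFiniteMeasure P] in
theorem bm_W (W : H →ₗᵢ[ℝ] Lp ℝ 2 P) (g : H) : Bm fun s => cexp (I * (W g s : ℝ)) := by
  have := (Lp.stronglyMeasurable (W g)).measurable
  exact ⟨by fun_prop, 1, fun s => (norm_exp_I_mul_ofReal _).le⟩

omit [IsFiniteMeasure P] in
theorem Iso.ex_mul (hW : Iso W) (g : H) (S : Finset J) (t : J → ℝ) (f : J → H) :
    ∫ s, ex S t (fun i => W (f i) s) * cexp (I * (W g s : ℝ)) ∂P =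
      cexp (-(‖g + ∑ i ∈ S, t i • f i‖ ^ 2 / 2 : ℝ)) :=
  (integral_congr_ae (W_exp W g S t f)).trans (hW _)

omit [IsFiniteMeasure P] in
theorem W_ex (W : H →ₗᵢ[ℝ] Lp ℝ 2 P) (S : Finset J) (t : J → ℝ) (f : J → H) :
    ∀ᵐ s ∂P, ex S t (fun i => W (f i) s) = cexp (I * (W (∑ i ∈ S, t i • f i) s : ℝ)) := by
  filter_upwards [W_exp W 0 S t f, Lp.coeFn_zero ℝ 2 P] with s a b
  rwa [map_zero, b, Pi.zero_apply, ofReal_zero, mul_zero, Complex.exp_zero, mul_one, zero_add] at a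

omit [IsFiniteMeasure P] in
theorem Iso.ex (hW : Iso W) (S : Finset J) (t : J → ℝ) (f : J → H) :
    ∫ s, ex S t (fun i => W (f i) s) ∂P = cexp (-(‖∑ i ∈ S, t i • f i‖ ^ 2 / 2 : ℝ)) :=
  (integral_congr_ae (W_ex W S t f)).trans (hW _)

/-- **the tilted characteristic functional** -/
theorem tilt_char (hW : Iso W) (hl : 0 ≤ l) (r : ι → H) (g : H) :
    ∫ s, cexp (I * (W g s : ℝ)) * tilt l (fun j => W (r j) s) ∂P =
      (Zd l (gram ℝ r) * Real.exp (-(qf l r g / 2)) : ℝ) := by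
  have := fub (P := P) hl (bm_W W g).int (meas_W W r).neg.aemeasurable
  simp only [tilt, Pi.neg_apply, neg_sq] at this
  rw [← gam_shift hl, ← integral_complex_ofReal]
  refine this.trans (integral_congr_ae (ae_of_all _ fun ξ => ?_))
  have h := hW.ex_mul g Finset.univ (fun j => -(√l * ξ j)) r
  simp only [GT.ex, neg_smul, Finset.sum_neg_distrib, ← sub_eq_add_neg, neg_mul_comm,
    mul_comm (cexp _) (cexp (I * (W g _ : ℝ)))] at h
  simp only [h, ofReal_exp, ofReal_neg]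

theorem Iso.tilt (hW : Iso W) (hl : 0 ≤ l) (r : ι → H) :
    ∫ s, tilt l (fun j => W (r j) s) ∂P = Zd l (gram ℝ r) := by
  have h := tilt_char hW hl r 0
  have h0 : qf l r 0 = 0 := le_antisymm (by simpa using qf_le_norm l r 0) (by
    unfold qf q1; positivity)
  rw [h0, map_zero, integral_congr_ae (g := fun s => ((GT.tilt l fun j => W (r j) s : ℝ) : ℂ))
    ((Lp.coeFn_zero ℝ 2 P).mono fun s hs => by simp only [hs]; simp), integral_complex_ofReal] at h
  simpa using ofReal_injective h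

/-- independence of orthogonal parts -/
theorem fac (hW : Iso W) (hf : ∀ i, inner ℝ (f i) h = 0) (hg : inner ℝ g h = 0) (hF : Bm F) :
    ∫ s, F (fun i => W (f i) s) * cexp (I * (W (g + h) s : ℝ)) ∂P = cexp (-(‖h‖ ^ 2 / 2 : ℝ)) *
      ∫ s, F (fun i => W (f i) s) * cexp (I * (W g s : ℝ)) ∂P := by
  have k : ∀ {F : (J → ℝ) → ℂ}, Bm F → ∫ s, F (fun i => W (f i) s) *
      (cexp (I * (W (g + h) s : ℝ)) - cexp (-(‖h‖ ^ 2 / 2 : ℝ)) * cexp (I * (W g s : ℝ))) ∂P =
      ∫ s, F (fun i => W (f i) s) * cexp (I * (W (g + h) s : ℝ)) ∂P - cexp (-(‖h‖ ^ 2 / 2 : ℝ)) *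
      ∫ s, F (fun i => W (f i) s) * cexp (I * (W g s : ℝ)) ∂P := fun hF => by
    have b := hF.comp (meas_W W f)
    rw [← integral_const_mul, ← integral_sub (b.mul (bm_W W _)).int
      ((b.mul (bm_W W _)).int.const_mul _)]
    simp only [mul_sub, mul_left_comm]
  refine sub_eq_zero.1 ((k hF).symm.trans (uq (meas_W W f)
    ((bm_W W _).int.sub ((bm_W W _).int.const_mul _)) (fun S t => ?_) hF))
  refine (k (bm_ex S t)).trans ?_
  rw [hW.ex_mul, hW.ex_mul, add_right_comm, norm_add_sq_real _ h, inner_add_left, hg, sum_inner,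
    ← Complex.exp_add]
  simp only [inner_smul_left, hf, mul_zero, Finset.sum_const_zero, add_zero, sub_eq_zero]
  congr 1
  push_cast
  ring

/-- the tilted law is dominated on the field orthogonal to `M` -/
theorem dom (hW : Iso W) (hl : 0 ≤ l) {M : Submodule ℝ H} [M.HasOrthogonalProjection]
    (hf : ∀ i, f i ∈ Mᗮ) (r : ι → H) (hF : Bm F) :
    ‖∫ s, F (fun i => W (f i) s) * tilt l (fun j => W (r j) s) ∂P‖ ≤
      Zd l (gram ℝ fun j => M.starProjection (r j)) * ∫ s, ‖F fun i => W (f i) s‖ ∂P := by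
  have hp := posSemidef_gram ℝ fun j => M.starProjection (r j)
  rw [fub hl (hF.comp (meas_W W f)).int (meas_W W r).aemeasurable, ← gam_quad hl hp,
    ← integral_mul_const]
  refine norm_integral_le_of_norm_le ((int_exp_quad hl hp).mul_const _) (ae_of_all _ fun ξ => ?_)
  set v := ∑ j, (√l * ξ j) • r j with hv
  have h1 := fac hW (h := M.starProjection v) (g := v - M.starProjection v)
    (fun i => M.inner_left_of_mem_orthogonal (M.starProjection_apply_mem v) (hf i))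
    (M.inner_left_of_mem_orthogonal (M.starProjection_apply_mem v)
      (M.sub_starProjection_mem_orthogonal v)) hF
  have h2 : ‖M.starProjection v‖ ^ 2 =
      l * (ξ ⬝ᵥ (gram ℝ fun j => M.starProjection (r j)) *ᵥ ξ) := by
    simp only [gram_quad, hv, map_sum, map_smul, mul_smul, ← Finset.smul_sum, norm_smul, mul_pow,
      Real.norm_eq_abs, sq_abs, Real.sq_sqrt hl]
  rw [sub_add_cancel] at h1
  refine le_of_eq_of_le (congrArg norm ((integral_congr_ae ((W_ex W Finset.univ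
    (fun j => √l * ξ j) r).mono fun s hs => congrArg _ hs)).trans h1)) ?_
  rw [norm_mul, ← ofReal_neg, ← ofReal_exp, norm_real, Real.norm_of_nonneg (Real.exp_pos _).le, h2, neg_div]
  refine mul_le_mul_of_nonneg_left ((norm_integral_le_integral_norm _).trans (le_of_eq ?_))
    (Real.exp_pos _).le
  simp only [norm_mul, norm_exp_I_mul_ofReal, mul_one]

variable {H' : Type*} [NormedAddCommGroup H'] [InnerProductSpace ℝ H'] {Θ' : Type*}
  [MeasurableSpace Θ'] {P' : Measure Θ'} [IsFiniteMeasure P'] {W' : H' →ₗᵢ[ℝ] Lp ℝ 2 P'}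
  {f' : J → H'}

theorem norm_sum_eq (h : ∀ i j, inner ℝ (f i) (f j) = inner ℝ (f' i) (f' j)) (S : Finset J)
    (t : J → ℝ) : ‖∑ i ∈ S, t i • f i‖ ^ 2 = ‖∑ i ∈ S, t i • f' i‖ ^ 2 := by
  simp only [← real_inner_self_eq_norm_sq, sum_inner, inner_sum, inner_smul_left, inner_smul_right,
    h]

/-- the law is determined by the covariance -/
theorem law_eq (hW : Iso W) (hW' : Iso W')
    (h : ∀ i j, inner ℝ (f i) (f j) = inner ℝ (f' i) (f' j)) :
    P.map (fun s i => W (f i) s) = P'.map fun s i => W' (f' i) s :=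
  ext_ex fun S t => by
    rw [integral_map (meas_W W f).aemeasurable (meas_ex S t).aestronglyMeasurable,
      integral_map (meas_W W' f').aemeasurable (meas_ex S t).aestronglyMeasurable, hW.ex, hW'.ex,
      norm_sum_eq h]

/-- **setwise convergence of the tilted laws** -/
theorem tv (hW : Iso W) (hW' : Iso W') {M : Submodule ℝ H} [M.HasOrthogonalProjection]
    (hf : ∀ i, f i ∈ Mᗮ) {κ : Type*} {L : Filter κ} {N : κ → Type*} [∀ k, Fintype (N k)]
    [∀ k, DecidableEq (N k)] {r : ∀ k, N k → H} {l : κ → ℝ} (hl : ∀ k, 0 ≤ l k) {C : ℝ}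
    (hC : ∀ᶠ k in L, Zd (l k) (gram ℝ fun j => M.starProjection (r k j)) ≤
      C * Zd (l k) (gram ℝ (r k)))
    (hq : ∀ (S : Finset J) (t : J → ℝ), Tendsto (fun k => qf (l k) (r k) (∑ i ∈ S, t i • f i)) L
      (𝓝 (‖∑ i ∈ S, t i • f' i‖ ^ 2)))
    {F : (J → ℝ) → ℝ} (hF : Measurable F) {B : ℝ} (hB : ∀ x, |F x| ≤ B) :
    Tendsto (fun k => (∫ s, F (fun i => W (f i) s) * tilt (l k) (fun j => W (r k j) s) ∂P) /
      Zd (l k) (gram ℝ (r k))) L (𝓝 (∫ s, F (fun i => W' (f' i) s) ∂P')) := by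
  have hZ := fun k => Zd_pos (hl k) (posSemidef_gram ℝ (r k))
  have := setwise (P := P) (meas_W W f) (P' := P') (meas_W W' f') (L := L) (C := C)
    (ρ := fun k s => (tilt (l k) fun j => W (r k j) s : ℝ) / (Zd (l k) (gram ℝ (r k)) : ℂ))
    (fun k => (Bm.ofReal ((cont_tilt _).measurable.comp (meas_W W (r k))) (C := 1) fun s =>
      (abs_of_pos (tilt_pos _ _)).trans_le (tilt_le (hl k) _)).int.div_const _)
    (hC.mono fun k hk F hF => by
      simp only [← mul_div_assoc, integral_div, norm_div, norm_real, Real.norm_of_nonneg (hZ k).le]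
      rw [div_le_iff₀ (hZ k), mul_right_comm]
      exact (dom hW (hl k) hf (r k) hF).trans (mul_le_mul_of_nonneg_right hk (by positivity)))
    (fun S t => by
      rw [hW'.ex]
      refine ((continuous_exp.tendsto _).comp ((continuous_ofReal.tendsto _).comp
        ((hq S t).div_const 2)).neg).congr fun k => ?_
      simp only [← mul_div_assoc, integral_div]
      rw [integral_congr_ae (g := fun s => cexp (I * (W (∑ i ∈ S, t i • f i) s : ℝ)) *
        tilt (l k) fun j => W (r k j) s) ((W_ex W S t f).mono fun s hs => by rw [hs]),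
        tilt_char hW (hl k), ofReal_mul, mul_div_cancel_left₀ _ (ofReal_ne_zero.2 (hZ k).ne')]
      simp) (Bm.ofReal hF hB)
  simp only [← mul_div_assoc, integral_div, ← ofReal_mul, integral_complex_ofReal,
    ← ofReal_div] at this
  exact tendsto_ofReal_iff.1 this

/-- absolute continuity of the limit -/
theorem ac (hW : Iso W) (hW' : Iso W') {M : Submodule ℝ H} [M.HasOrthogonalProjection]
    (hf : ∀ i, f i ∈ Mᗮ) {κ : Type*} {L : Filter κ} [L.NeBot] {N : κ → Type*} [∀ k, Fintype (N k)]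
    [∀ k, DecidableEq (N k)] {r : ∀ k, N k → H} {l : κ → ℝ} (hl : ∀ k, 0 ≤ l k) {C : ℝ}
    (hC : ∀ᶠ k in L, Zd (l k) (gram ℝ fun j => M.starProjection (r k j)) ≤
      C * Zd (l k) (gram ℝ (r k)))
    (hq : ∀ (S : Finset J) (t : J → ℝ), Tendsto (fun k => qf (l k) (r k) (∑ i ∈ S, t i • f i)) L
      (𝓝 (‖∑ i ∈ S, t i • f' i‖ ^ 2)))
    {F : (J → ℝ) → ℝ} (hF : Measurable F) {B : ℝ} (hB : ∀ x, |F x| ≤ B) :
    ∫ s, F (fun i => W' (f' i) s) ∂P' ≤ C * ∫ s, |F fun i => W (f i) s| ∂P := by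
  refine le_of_tendsto (tv hW hW' hf hl hC hq hF hB) (hC.mono fun k hk => ?_)
  have := dom hW (hl k) hf (r k) (Bm.ofReal hF hB)
  simp only [← ofReal_mul, integral_complex_ofReal, norm_real, Real.norm_eq_abs] at this
  rw [div_le_iff₀ (Zd_pos (hl k) (posSemidef_gram ℝ (r k))), mul_right_comm]
  exact (le_abs_self _).trans (this.trans (mul_le_mul_of_nonneg_right hk (by positivity)))

end

end Vale.Agent.P155.GT
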