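import Vale.Agent.P155T.C

/-!
# P155, Gaussian tilts: the tilt of a mixture (helper98)
-/

set_option linter.all false

open MeasureTheory Filter Topology Matrix Complex
open scoped MatrixOrder ENNReal

namespace Vale.Agent.P155.GT

noncomputable section

variable {ι : Type*} [Fintype ι] [DecidableEq ι] {l : ℝ} {A : Matrix ι ι ℝ}
  {H : Type*} [NormedAddCommGroup H] [InnerProductSpace ℝ H]

/-- the Fourier transform of a Gaussian is nonnegative -/
theorem four_pos (r : ι → H) (a : ι → ℝ) : 0 ≤ (∫ ξ, cexp (I * (∑ j, ξ j * a j : ℝ) -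
    (‖∑ j, ξ j • r j‖ ^ 2 : ℝ) / 2) ∂gam ι).re := by
  obtain ⟨B, hB⟩ := CStarAlgebra.nonneg_iff_eq_star_mul_self.mp (posSemidef_gram ℝ r).nonneg
  rw [star_eq_conjTranspose, conjTranspose_eq_transpose_of_trivial] at hB
  have h := fub (P := gam ι) zero_le_one (Ψ := fun ξ => cexp (I * (∑ j, ξ j * a j : ℝ)))
    (Integrable.of_bound (Continuous.aestronglyMeasurable (by fun_prop)) 1
      (ae_of_all _ fun ξ => (norm_exp_I_mul_ofReal _).le)) (X := fun ξ => B *ᵥ ξ)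
    (Continuous.aemeasurable (by fun_prop))
  have e1 : ∀ ξ : ι → ℝ, cexp (I * (∑ j, ξ j * a j : ℝ) - (‖∑ j, ξ j • r j‖ ^ 2 : ℝ) / 2) =
      cexp (I * (∑ j, ξ j * a j : ℝ)) * tilt 1 (B *ᵥ ξ) := fun ξ => by
    rw [← gram_quad, hB, ← mulVec_mulVec, dotProduct_mulVec, vecMul_transpose, tilt, ofReal_exp,
      ← Complex.exp_add]
    simp only [dotProduct, sq]
    congr 1
    push_cast
    ring
  have e2 : ∀ ζ ξ : ι → ℝ, cexp (I * (∑ j, ξ j * a j : ℝ)) *
      cexp (I * (∑ j, √1 * ζ j * (B *ᵥ ξ) j : ℝ)) =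
        cexp (I * (∑ j, ξ j * (a + Bᵀ *ᵥ ζ) j : ℝ)) := fun ζ ξ => by
    rw [← Complex.exp_add, ← mul_add, ← ofReal_add]
    congr 3
    simp only [Real.sqrt_one, one_mul]
    change ξ ⬝ᵥ a + ζ ⬝ᵥ B *ᵥ ξ = ξ ⬝ᵥ (a + Bᵀ *ᵥ ζ)
    rw [dotProduct_add, dotProduct_mulVec ζ, mulVec_transpose, dotProduct_comm _ ξ]
  simp only [e2, hs1, integral_complex_ofReal] at h
  simp only [e1, h, ofReal_re]
  exact integral_nonneg fun _ => (tilt_pos _ _).le

variable {S : Type*} [MeasurableSpace S] {w : S → (ι → ℝ) → ℂ}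

/-- the conditional tilt -/
def Tw (w : S → (ι → ℝ) → ℂ) (s : S) : ℝ≥0∞ := ENNReal.ofReal (∫ ξ, w s ξ ∂gam ι).re

theorem meas_Tw (hm : Measurable (Function.uncurry w)) : Measurable (Tw w) :=
  (measurable_re.comp hm.stronglyMeasurable.integral_prod_right.measurable).ennreal_ofReal

theorem lint_Tw (hl : 0 ≤ l) (hA : A.PosSemidef) (hm : Measurable (Function.uncurry w))
    (h1 : ∀ s ξ, ‖w s ξ‖ ≤ 1) (h0 : ∀ s, 0 ≤ (∫ ξ, w s ξ ∂gam ι).re) {μ : Measure S}
    [IsFiniteMeasure μ] (h : ∀ ξ, ∫ s, w s ξ ∂μ = Real.exp (-(l * (ξ ⬝ᵥ A *ᵥ ξ)) / 2)) :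
    ∫⁻ s, Tw w s ∂μ = ENNReal.ofReal (Zd l A) := by
  have hi : Integrable (Function.uncurry w) (μ.prod (gam ι)) :=
    .of_bound hm.aestronglyMeasurable 1 (ae_of_all _ fun z => h1 _ _)
  have := integral_integral_swap hi
  simp only [h, integral_complex_ofReal, gam_quad hl hA] at this
  have e := integral_re hi.integral_prod_left
  simp only [Function.uncurry, this, RCLike.re_to_complex, ofReal_re] at e
  rw [← e]
  exact (ofReal_integral_eq_lintegral_ofReal hi.integral_prod_left.re (ae_of_all _ h0)).symm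

theorem fatou {μ : Measure S} {t : ℕ → S → ℝ≥0∞} (h : ∀ n, Measurable (t n) ∧ ∫⁻ s, t n s ∂μ ≤ 1) :
    Measurable (fun s => liminf (t · s) atTop) ∧ ∫⁻ s, liminf (t · s) atTop ∂μ ≤ 1 :=
  ⟨.liminf fun n => (h n).1, (lintegral_liminf_le fun n => (h n).1).trans
    (liminf_le_of_frequently_le' (.of_forall fun n => (h n).2))⟩

end

end Vale.Agent.P155.GT
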