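import Vale.Agent.P155T.E
import Vale.Agent.P155S.Sk
import Vale.Agent.P155.SW924.Kstep
import Vale.Agent.P155G.En
import Vale.Agent.P155L.AI
import Vale.Agent.P155L.Lam
import Vale.Agent.P155.SW801.Geo
import Vale.Agent.P155.NT730Y.Mk3
import Vale.Agent.P155.U.Xex3
import Vale.Agent.P155.U613.Sep

/-!
# P155, the inequality `m ≤ 1` (helper98)
-/

set_option linter.all false

namespace Vale.Agent.P155.Soup

open MeasureTheory ProbabilityTheory Set Metric TopologicalSpace Filter Topology Matrix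
  Vale.Agent.P155 Vale.Agent.P155.Q1 Vale.Agent.P155.Tree Vale.Agent.P155.BL Vale.Agent.P155.Uq
  Vale.Agent.P155S.Poi Vale.Agent.P155.LJ Vale.Agent.P155.GT Vale.Agent.P155.SWR
open scoped NNReal ENNReal

/-- Le Jan's identity -/
def LJW : Prop := ∀ W, IsWiener W → ∀ (V V' : Set ℂ) (u : ℂ → ℝ) (N : ℕ → ℕ)
  (φ : ∀ n, Fin (N n) → ℂ → ℝ), IsOpen V → IsOpen V' → Bornology.IsBounded V → V' ⊆ V →
  AI u N φ → tsupport u ⊆ V' → ∀ l : ℝ, 0 ≤ l → (∀ n, (gm W V (φ n)).PosSemidef) →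
  (∀ n, (gm W V' (φ n)).PosSemidef) →
  Tendsto (fun n => Real.log (1 + l • gm W V (φ n)).det - Real.log (1 + l • gm W V' (φ n)).det)
    atTop (𝓝 (lam W V V' u l))

variable {V U : Set ℂ} {ι : Type} [Fintype ι] [DecidableEq ι] {φ : ι → ℂ → ℝ} {l : ℝ}
  {W : Measure Pa}

/-- the weight of the tilt -/
noncomputable def wz (V : Set ℂ) (φ : ι → ℂ → ℝ) (l : ℝ) (s : Sp V) (ξ : ι → ℝ) : ℂ :=
  wt (pr (s 1).2 fun z => ∑ j, √(2 * l) * ξ j * φ j z)
    (greenEnergy (V \ (s 1).1) fun z => ∑ j, √(2 * l) * ξ j * φ j z)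

theorem pr_sum (hφ : ∀ j, IsTest V (φ j)) (f : Fld V) (c : ι → ℝ) :
    pr f (fun z => ∑ j, c j * φ j z) = ∑ j, c j * pr f (φ j) := by
  simp only [pr, Finset.mul_sum, ← integral_const_mul]
  rw [integral_finset_sum _ fun j _ => Gam.pr_int (Gam.test_smul (hφ j) (c j)) f]
  simp only [mul_left_comm]

theorem lint_wz (ho : IsOpen V) (hb : Bornology.IsBounded V) (hφ : ∀ j, IsTest V (φ j)) :
    Measurable (Tw (wz V φ l)) ∧ ∀ (μ : Measure (Sp V)) [IsFiniteMeasure μ], 0 ≤ l →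
      IsWiener W → IsOpen U → U ⊆ V → (∀ z ∈ U, SimplyConnectedSpace (connectedComponentIn U z)) →
      (∀ j, IsTest U (φ j)) → (∀ j z, 0 ≤ φ j z) → (∀ ψ, IsTest U ψ →
        ∫ s, wt (pr (s 1).2 ψ) (greenEnergy (V \ (s 1).1) ψ) ∂μ =
          Complex.exp (-greenEnergy U ψ / 2)) →
      (gm W U φ).PosSemidef ∧ ∫⁻ s, Tw (wz V φ l) s ∂μ = ENNReal.ofReal (Zd l (gm W U φ)) := by
  obtain ⟨R, hR⟩ := Xe.exists_isR ho hb
  have hm : Measurable (Function.uncurry (wz V φ l)) := by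
    have h1 := Xe.meas_green_sum ho hb hR (T := Sp V × (ι → ℝ)) (A := fun p => (p.1 1).1)
      (by fun_prop) Finset.univ (fun j p => √(2 * l) * p.2 j) (fun j _ => by fun_prop) φ
      fun j _ => hφ j
    have h2 j : Measurable fun p : Sp V × (ι → ℝ) => pr (p.1 1).2 (φ j) :=
      (Gam.meas_pr (hφ j) 1).comp measurable_fst
    simp only [Function.uncurry_def, wz, wt, pr_sum hφ]
    fun_prop
  refine ⟨meas_Tw hm, fun μ _ hl hW hU hUV hsc hφU h0 h => ?_⟩
  have hu j : IsTest univ (φ j) := ⟨(hφ j).1, (hφ j).2.1, subset_univ _⟩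
  have hp := GD.gm_psd hW hU (hb.subset hUV) hsc hu h0
  refine ⟨hp, lint_Tw hl hp hm (fun s ξ => ?_) (fun s => ?_) fun ξ => ?_⟩
  · have := G1.green_nonneg (V \ (s 1).1) fun z => ∑ j, √(2 * l) * ξ j * φ j z
    simp only [wz, wt, Complex.norm_exp, Real.exp_le_one_iff]
    generalize greenEnergy _ _ = x at this ⊢
    simp
    linarith
  · have := four_pos (fun j => √(2 * l) • (GV (V \ (s 1).1)).starProjection (R (φ j)))
      fun j => √(Real.pi / 2) * (√(2 * l) * pr (s 1).2 (φ j))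
    convert this using 5 with ξ
    rw [wz, wt, pr_sum hφ, hR.energy _ sdiff_subset _ (Xe.test_sum _ _ _ fun j _ => hφ j),
      Xe.R_sum hR _ _ _ fun j _ => hφ j, mul_assoc, ← Complex.ofReal_mul, Finset.mul_sum]
    simp only [map_sum, map_smul, smul_smul, mul_comm (ξ _), mul_assoc]
  · have := GD.gm_quad hW hU (hb.subset hUV) hsc hu h0 (√(2 * l) • ξ)
    rw [mulVec_smul, smul_dotProduct, dotProduct_smul, smul_smul, Real.mul_self_sqrt (by positivity),
      smul_eq_mul, mul_assoc, mul_right_inj' two_ne_zero] at this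
    rw [this, Complex.ofReal_exp]
    push_cast
    exact h _ (Xe.test_sum _ _ _ fun j _ => hφU j)

theorem gff_zero (ho : IsOpen V) {Q : Measure (Sp V)} (hQ : Canon V Q) {ψ : ℂ → ℝ}
    (hψ : IsTest V ψ) : ∫ s, wt (pr (s 1).2 ψ) (greenEnergy (V \ (s 1).1) ψ) ∂Q =
      Complex.exp (-greenEnergy V ψ / 2) := by
  have := hQ.prob
  have h := hQ.gff 0 ψ hψ (fun _ => 1) ⟨measurable_const, 1, fun _ => by simp⟩
  have e : V \ frontier V = V := (disjoint_iff_inter_eq_empty.2 ho.inter_frontier_eq).sdiff_eq_left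
  refine (integral_congr_ae ?_).trans (h.trans ((integral_congr_ae (g := fun _ =>
    Complex.exp (-greenEnergy V ψ / 2)) ?_).trans (by simp)))
  · filter_upwards [hQ.zero] with s hs
    simp [hs.2, U613.pr_zero hψ, wt, cst]
  · filter_upwards [hQ.zero] with s hs
    simp [hs.1, e]

theorem inv_ex {t : ℝ≥0∞} (ht : t ≠ ⊤) :
    (ex ((1 / 2 : ℝ≥0∞) * t))⁻¹ = ENNReal.ofReal (Real.exp (t.toReal / 2)) := by
  rw [← ENNReal.ofReal_toReal (a := 1 / 2 * t) (by finiteness), ex_ofReal ENNReal.toReal_nonneg,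
    ← ENNReal.ofReal_inv_of_pos (Real.exp_pos _), ← Real.exp_neg, neg_neg]
  simp [div_eq_inv_mul]

/-- **MLE** -/
theorem mle_of (hL : LJW) : MLE := by
  intro W hW V E B hS
  obtain ⟨ho, hb, hne, hsc⟩ := hS.dom
  unfold mm L1
  split_ifs with h
  swap
  · simp
  obtain ⟨Θ, _, P, G, H, hP, hG, e⟩ := h.choose_spec
  obtain ⟨Q, hQ, hlaw⟩ := NT730Y.exists_canon ho hb hne hG
  have hQp := hQ.prob
  have e1 := congrArg (Measure.map fun s : ℕ → NC => s 1) hlaw
  rw [Measure.map_map (measurable_pi_apply 1) (NT730Y.meas_seq hG),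
    Measure.map_map (measurable_pi_apply 1) NT730Y.meas_fst] at e1
  have hc : Vᶜ.Nonempty := nonempty_compl.2 fun h => NormedSpace.unbounded_univ ℝ ℂ (h ▸ hb)
  have hKc : IsClosed (Vᶜ ∪ B) := ho.isClosed_compl.union hS.cr
  have hKn : IsConnected (Vᶜ ∪ B) := ⟨hc.inl, hS.pr⟩
  obtain ⟨X, _, ν, κ, b, hν, hκ, hbind, hy⟩ :=
    SW924.kstep V ho hb hne hsc Q hQ _ hKc hKn subset_union_left
  set ε : ℕ → ℝ := fun k => 1 / (k + 1)
  have hε k : 0 < ε k := Nat.one_div_pos_of_nat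
  have hε0 : Tendsto ε atTop (𝓝 0) := tendsto_one_div_add_atTop_nhds_zero_nat
  set D : ℕ → Set ℂ := fun k => {z | ε k < infDist z Vᶜ}
  have hO k : closure (thickening (ε k) E ∩ D k) ⊆ cthickening (ε k) E ∩ V := by
    refine (closure_minimal (inter_subset_inter (thickening_subset_cthickening _ _) fun z hz =>
      le_of_lt hz) (isClosed_cthickening.inter (isClosed_le continuous_const
        (continuous_infDist_pt Vᶜ)))).trans (inter_subset_inter_right _ fun z hz => ?_)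
    by_contra h'
    exact (hε k).not_ge (infDist_zero_of_mem (s := Vᶜ) h' ▸ hz)
  choose u N φ hu hA hφ using fun k => exists_ai (isOpen_thickening.inter
    (isOpen_lt continuous_const (continuous_infDist_pt Vᶜ)) : IsOpen (thickening (ε k) E ∩ D k))
    (hS.cq.isBounded.thickening.subset inter_subset_left)
  have hφV k n j : IsTest V (φ k n j) :=
    ⟨(hφ k n j).1, (hφ k n j).2.1, (hφ k n j).2.2.trans ((hO k).trans inter_subset_right)⟩
  have hz := fun k (l : ℝ) n U => lint_wz (W := W) (U := U) (l := l) ho hb (hφV k n)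
  have hV := fun k (l : ℕ) n => (hz k l n V).2 Q l.cast_nonneg hW ho subset_rfl (fun z hz => by
    rw [(isConnected_iff_connectedSpace.2 inferInstance).isPreconnected.connectedComponentIn hz]
    exact hsc) (hφV k n) ((hA k).nonneg n) fun ψ => gff_zero ho hQ
  set t : ℕ → ℕ → ℕ → X → ℝ≥0∞ := fun k l n y =>
    (∫⁻ s, Tw (wz V (φ k n) l) s ∂κ y) * (ENNReal.ofReal (Zd l (gm W V (φ k n))))⁻¹
  have hF := fatou (μ := ν) fun k => fatou fun l => fatou (t := t k l) fun n => by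
    have m := (hz k l n V).1
    have m' := m.lintegral_kernel (κ := κ)
    refine ⟨m'.mul_const _, ?_⟩
    rw [lintegral_mul_const _ m', ← Measure.lintegral_bind κ.aemeasurable m.aemeasurable, hbind,
      (hV k l n).2]
    exact ENNReal.mul_inv_le_one _
  rw [e.trans e1]
  refine (lintegral_map_le _ _).trans ?_
  rw [← hbind]
  refine (Measure.lintegral_bind_le _ _ _).trans ((lintegral_mono_ae ?_).trans hF.2)
  filter_upwards [hy] with y ⟨h1, h2, _⟩
  refine (lintegral_mono_ae ?_).trans_eq ((lintegral_const _).trans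
    (by rw [measure_univ]; exact mul_one _))
  filter_upwards [h1] with s ⟨hs, hp⟩
  refine indicator_apply_le' (fun hd => ?_) fun _ => bot_le
  obtain ⟨g1, g2, g3, -⟩ := geo ho hb hKc hKn subset_union_left hp
  set b0 := KK V B (s 1).1
  have e2 : b y = Vᶜ ∪ b0 := by
    rw [← hs, KK, union_assoc]
    congr 3
    ext C
    refine exists_congr fun U => and_congr_right fun hU => and_congr_left' ?_
    rw [inter_union_distrib_left, (disjoint_compl_right_iff_subset.2 (hp.nice.inside U hU)).inter_eq,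
      empty_union]
  rw [hs] at g1 g2 g3
  obtain ⟨δ, hδ, hδ'⟩ := hS.cq.exists_cthickening_subset_open
    (isClosed_KK hS.cr hp.nice.fin hb).isOpen_compl (Disjoint.subset_compl_left hd)
  set M : ℕ → Set CL := fun k =>
    {γ | range γ ⊆ V ∧ (range γ ∩ b0).Nonempty ∧ (range γ ∩ (E ∩ D k)).Nonempty}
  have hM : Monotone M := fun i j hij γ hγ => ⟨hγ.1, hγ.2.1, hγ.2.2.mono (inter_subset_inter_right _
    (inter_subset_inter_right _ (show D i ⊆ D j from fun z hz =>
      (Nat.one_div_le_one_div hij).trans_lt (show ε i < infDist z Vᶜ from hz))))⟩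
  have hT := ((continuous_inv.comp cont_ex).tendsto _).comp
    (tendsto_measure_iUnion_atTop (μ := nu W) hM)
  refine le_trans (ENNReal.inv_le_inv.2 (ex_anti.antitone (measure_mono fun γ hγ => ?_)))
    (hT.liminf_eq.ge.trans (liminf_le_liminf ?_))
  · obtain ⟨a1, a2, z, a3, a4⟩ := hγ
    obtain ⟨k, hk⟩ := (hε0.eventually_lt_const
      ((ho.isClosed_compl.notMem_iff_infDist_pos hc).1 (not_not.2 (a1 a3)))).exists
    exact mem_iUnion.2 ⟨k, a1, a2, z, a3, a4, hk⟩
  filter_upwards [hε0.eventually_le_const hδ] with k hk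
  have hsub : closure (thickening (ε k) E ∩ D k) ⊆ (b y)ᶜ := fun z hz => by
    rw [e2]
    exact fun h => h.elim (fun h => h (hO k hz).2) (hδ' (cthickening_mono hk _ (hO k hz).1))
  have hs' : tsupport (u k) ⊆ (b y)ᶜ := by rwa [tsupport, hu]
  have hbV := compl_subset_comm.1 g2
  have hB := fun (l : ℕ) n => (hz k l n (b y)ᶜ).2 (κ y) l.cast_nonneg hW g1.isOpen_compl hbV g3
    (fun j => ⟨(hφ k n j).1, (hφ k n j).2.1, (hφ k n j).2.2.trans hsub⟩) ((hA k).nonneg n) h2
  have c : Continuous fun x : ℝ => ENNReal.ofReal (Real.exp (x / 2)) :=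
    ENNReal.continuous_ofReal.comp (by fun_prop)
  have l1 (l : ℕ) : liminf (t k l · y) atTop =
      ENNReal.ofReal (Real.exp (lam W V (b y)ᶜ (u k) l / 2)) := by
    refine Tendsto.liminf_eq (((c.tendsto _).comp (hL W hW V _ _ _ _ ho g1.isOpen_compl hb hbV (hA k)
      hs' l l.cast_nonneg (fun n => (hV k l n).1) fun n => (hB l n).1)).congr fun n => ?_)
    simp only [t, Function.comp, (hB l n).2, ← Zd_div l.cast_nonneg (hV k l n).1 (hB l n).1]
    exact ENNReal.ofReal_div_of_pos (Zd_pos l.cast_nonneg (hV k l n).1)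
  have l2 := ((c.tendsto _).comp ((lam_tendsto hW ho g1.isOpen_compl hb (hA k).cont (hA k).cpt
    (fun x => (hA k).sum 0 x ▸ Finset.sum_nonneg fun j _ => mul_nonneg ((hA k).nonneg _ _ _)
      (integral_nonneg ((hA k).nonneg _ _))) hs').comp tendsto_natCast_atTop_atTop)).liminf_eq
  simp only [l1]
  refine le_trans ?_ l2.ge
  rw [← inv_ex (lam_fin hW g1.isOpen_compl hb (hA k).cpt hs')]
  refine ENNReal.inv_le_inv.2 (ex_anti.antitone (measure_mono (μ := nu W) ?_))
  rintro γ ⟨a1, ⟨z, a2, a3⟩, a4⟩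
  exact ⟨a1, fun h => h a2 (e2 ▸ .inr a3), a4.mono (inter_subset_inter_right _ (hu k ▸
    inter_subset_inter_left _ (self_subset_thickening (hε k) _)))⟩

end Vale.Agent.P155.Soup
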